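import Vale.Agent.P321.H778.Two

/-!
An upper bound for worst-case trace reconstruction: for every exponent `α > 2` there is a constant
`C > 0`, depending on `α` only, with `T_q(n) ≤ exp (C / (1 - q) * (log n) ^ α)` for every deletion
probability `q ∈ [0, 1)` and every `n ≥ 2`.
-/

namespace Vale.Agent.Results.P321.ExpLogUpper

open Vale.Agent.P321
open scoped unitInterval

theorem result : ∀ α : ℝ, 2 < α → ∃ C : ℝ, 0 < C ∧ ∀ q : I, (q : ℝ) < 1 → ∀ n : ℕ, 2 ≤ n →
    T q n ≤ (⌊Real.exp (C / (1 - q) * (Real.log n) ^ α)⌋₊ : ℕ∞) :=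
  fun _ hα => H778.exp_two hα

end Vale.Agent.Results.P321.ExpLogUpper
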