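import Vale.Agent.P321.H35.Round

/-!
Superlinear lower bound for `log T_q(n)` in `log n`: for every fixed deletion probability
`q ∈ (0, 1]`, `T_q(n) ≥ exp ((log n) ^ (1 + 1/50))` for all large `n`; more precisely there are
absolute constants `c > 0` and `n₀` such that the bound holds for all `n ≥ n₀` and all
`q ≥ (log n) ^ (-c)`.
-/

namespace Vale.Agent.Results.P321.SuperLinear

open Vale.Agent.P321
open scoped unitInterval

theorem result : (∃ c : ℝ, 0 < c ∧ ∃ n₀ : ℕ, ∀ n : ℕ, n₀ ≤ n → ∀ q : I,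
      (Real.log n) ^ (-c) ≤ (q : ℝ) →
        (⌈Real.exp ((Real.log n) ^ (1 + 1 / 50 : ℝ))⌉₊ : ℕ∞) ≤ T q n) ∧
    ∀ q : I, 0 < (q : ℝ) → ∃ n₀ : ℕ, ∀ n : ℕ, n₀ ≤ n →
      (⌈Real.exp ((Real.log n) ^ (1 + 1 / 50 : ℝ))⌉₊ : ℕ∞) ≤ T q n := by
  obtain ⟨c, hc, n₀, h⟩ := LB2.lower_superlinear
  refine ⟨⟨c, hc, n₀, h⟩, fun q hq => ?_⟩
  have hlog : Filter.Tendsto (fun n : ℕ => Real.log (n : ℝ)) Filter.atTop Filter.atTop :=
    Real.tendsto_log_atTop.comp tendsto_natCast_atTop_atTop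
  have h0 : Filter.Tendsto (fun n : ℕ => (Real.log (n : ℝ)) ^ (-c)) Filter.atTop (nhds 0) :=
    (tendsto_rpow_neg_atTop hc).comp hlog
  obtain ⟨n₁, hn₁⟩ := Filter.eventually_atTop.1 (h0.eventually (gt_mem_nhds hq))
  exact ⟨max n₀ n₁, fun n hn => h n ((le_max_left _ _).trans hn) q
    (hn₁ n ((le_max_right _ _).trans hn)).le⟩

end Vale.Agent.Results.P321.SuperLinear
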